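import Mathlib

/-!
# P226 pool jobs CHI3 / CHI4 (parallel copy, helper28)

The standard Gaussian measure on `EuclideanSpace ℝ (Fin d)` has density
`(2 π) ^ (-d / 2) * exp (-‖x‖ ^ 2 / 2)` with respect to Lebesgue measure, and the mean of the norm
is computed in polar coordinates.
-/

namespace Vale.Agent.Lib.P226.H28

open MeasureTheory ProbabilityTheory Real

/-- The density of the standard Gaussian measure on `EuclideanSpace ℝ (Fin d)`. -/
noncomputable def dens (d : ℕ) (x : EuclideanSpace ℝ (Fin d)) : ℝ :=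
  (2 * π) ^ (-(d : ℝ) / 2) * Real.exp (-‖x‖ ^ 2 / 2)

theorem dens_nonneg (d : ℕ) (x : EuclideanSpace ℝ (Fin d)) : 0 ≤ dens d x := by
  unfold dens
  positivity

theorem continuous_dens (d : ℕ) : Continuous (dens d) := by
  unfold dens
  fun_prop

theorem measurable_ofReal_dens (d : ℕ) :
    Measurable (fun x : EuclideanSpace ℝ (Fin d) => ENNReal.ofReal (dens d x)) :=
  (continuous_dens d).measurable.ennreal_ofReal

theorem integrable_dens (d : ℕ) : Integrable (dens d) := by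
  have h := GaussianFourier.integrable_cexp_neg_mul_sq_norm_add
    (V := EuclideanSpace ℝ (Fin d)) (b := (1 / 2 : ℂ)) (by norm_num) 0 0
  have h2 := h.norm
  have h3 : (fun v : EuclideanSpace ℝ (Fin d) =>
      ‖Complex.exp (-(1 / 2 : ℂ) * (‖v‖ : ℂ) ^ 2 + 0 * ((inner ℝ (0 : EuclideanSpace ℝ (Fin d)) v : ℝ) : ℂ))‖)
      = fun v => Real.exp (-‖v‖ ^ 2 / 2) := by
    funext v
    rw [Complex.norm_exp]
    congr 1
    simp
    norm_cast
    ring
  rw [h3] at h2
  unfold dens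
  exact h2.const_mul _

instance isFiniteMeasure_withDensity_dens (d : ℕ) :
    IsFiniteMeasure ((volume : Measure (EuclideanSpace ℝ (Fin d))).withDensity
      (fun x => ENNReal.ofReal (dens d x))) :=
  isFiniteMeasure_withDensity_ofReal (integrable_dens d).hasFiniteIntegral

theorem charFun_withDensity_dens (d : ℕ) (t : EuclideanSpace ℝ (Fin d)) :
    charFun ((volume : Measure (EuclideanSpace ℝ (Fin d))).withDensity
      (fun x => ENNReal.ofReal (dens d x))) t = Complex.exp (-(‖t‖ : ℂ) ^ 2 / 2) := by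
  rw [charFun_apply, integral_withDensity_eq_integral_toReal_smul (measurable_ofReal_dens d)
    (Filter.Eventually.of_forall fun x => ENNReal.ofReal_lt_top)]
  have h := GaussianFourier.integral_cexp_neg_mul_sq_norm_add
    (V := EuclideanSpace ℝ (Fin d)) (b := (1 / 2 : ℂ)) (by norm_num) Complex.I t
  have hpt : ∀ x : EuclideanSpace ℝ (Fin d),
      (ENNReal.ofReal (dens d x)).toReal • Complex.exp (((inner ℝ x t : ℝ) : ℂ) * Complex.I)
        = (((2 * π) ^ (-(d : ℝ) / 2) : ℝ) : ℂ) *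
          Complex.exp (-(1 / 2 : ℂ) * (‖x‖ : ℂ) ^ 2 + Complex.I * ((inner ℝ t x : ℝ) : ℂ)) := by
    intro x
    rw [ENNReal.toReal_ofReal (dens_nonneg d x), Complex.real_smul]
    unfold dens
    rw [Complex.ofReal_mul, mul_assoc, Complex.ofReal_exp, ← Complex.exp_add, real_inner_comm]
    congr 2
    push_cast
    ring
  simp_rw [hpt]
  rw [integral_const_mul, h, finrank_euclideanSpace_fin]
  have h2pi : (0 : ℝ) < 2 * π := by positivity
  have hbase : ((π : ℂ) / (1 / 2 : ℂ)) ^ ((d : ℂ) / 2)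
      = (((2 * π) ^ ((d : ℝ) / 2) : ℝ) : ℂ) := by
    rw [Complex.ofReal_cpow h2pi.le]
    congr 1
    · push_cast
      ring
    · push_cast
      ring
  have hexp : Complex.I ^ 2 * (‖t‖ : ℂ) ^ 2 / (4 * (1 / 2 : ℂ)) = -(‖t‖ : ℂ) ^ 2 / 2 := by
    rw [Complex.I_sq]
    ring
  rw [hbase, hexp, ← mul_assoc, ← Complex.ofReal_mul, ← Real.rpow_add h2pi]
  have : -(d : ℝ) / 2 + (d : ℝ) / 2 = 0 := by ring
  rw [this, Real.rpow_zero, Complex.ofReal_one, one_mul]

theorem stdGaussian_eq_withDensity (d : ℕ) :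
    stdGaussian (EuclideanSpace ℝ (Fin d))
      = (volume : Measure (EuclideanSpace ℝ (Fin d))).withDensity
        (fun x => ENNReal.ofReal (dens d x)) := by
  apply Measure.ext_of_charFun
  ext t
  rw [charFun_stdGaussian, charFun_withDensity_dens]

/-- Reduction of the mean norm to a one-dimensional integral (polar coordinates). -/
theorem integral_norm_stdGaussian_eq (d : ℕ) (hd : 0 < d) :
    ∫ y, ‖y‖ ∂(stdGaussian (EuclideanSpace ℝ (Fin d)))
      = (d : ℝ) * ((volume : Measure (EuclideanSpace ℝ (Fin d))).real (Metric.ball 0 1) *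
          ((2 * π) ^ (-(d : ℝ) / 2) *
            ∫ r in Set.Ioi (0 : ℝ), r ^ (d : ℝ) * Real.exp (-(1 / 2 : ℝ) * r ^ (2 : ℝ)))) := by
  have : Nonempty (Fin d) := ⟨⟨0, hd⟩⟩
  rw [stdGaussian_eq_withDensity, integral_withDensity_eq_integral_toReal_smul
    (measurable_ofReal_dens d) (Filter.Eventually.of_forall fun x => ENNReal.ofReal_lt_top)]
  have hpt : ∀ x : EuclideanSpace ℝ (Fin d),
      (ENNReal.ofReal (dens d x)).toReal • ‖x‖
        = (fun r : ℝ => (2 * π) ^ (-(d : ℝ) / 2) * (Real.exp (-r ^ 2 / 2) * r)) ‖x‖ := by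
    intro x
    rw [ENNReal.toReal_ofReal (dens_nonneg d x), smul_eq_mul]
    unfold dens
    ring
  have hpolar := integral_fun_norm_addHaar (volume : Measure (EuclideanSpace ℝ (Fin d)))
    (fun r : ℝ => (2 * π) ^ (-(d : ℝ) / 2) * (Real.exp (-r ^ 2 / 2) * r))
  rw [finrank_euclideanSpace_fin, nsmul_eq_mul, smul_eq_mul] at hpolar
  have hinner : ∫ y in Set.Ioi (0 : ℝ),
        y ^ (d - 1) • ((2 * π) ^ (-(d : ℝ) / 2) * (Real.exp (-y ^ 2 / 2) * y))
      = (2 * π) ^ (-(d : ℝ) / 2) *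
          ∫ r in Set.Ioi (0 : ℝ), r ^ (d : ℝ) * Real.exp (-(1 / 2 : ℝ) * r ^ (2 : ℝ)) := by
    rw [← integral_const_mul]
    refine setIntegral_congr_fun measurableSet_Ioi (fun y hy => ?_)
    have hy0 : (0 : ℝ) < y := hy
    show y ^ (d - 1) • ((2 * π) ^ (-(d : ℝ) / 2) * (Real.exp (-y ^ 2 / 2) * y))
      = (2 * π) ^ (-(d : ℝ) / 2) * (y ^ (d : ℝ) * Real.exp (-(1 / 2 : ℝ) * y ^ (2 : ℝ)))
    have h1 : y ^ (d : ℝ) = y ^ (d - 1) * y := by
      rw [Real.rpow_natCast, pow_sub_one_mul hd.ne']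
    have h2 : y ^ (2 : ℝ) = y ^ 2 := by
      rw [← Real.rpow_natCast]
      norm_num
    have h3 : -(1 / 2 : ℝ) * y ^ 2 = -y ^ 2 / 2 := by ring
    rw [h1, h2, h3, smul_eq_mul]
    ring
  calc ∫ x : EuclideanSpace ℝ (Fin d), (ENNReal.ofReal (dens d x)).toReal • ‖x‖
      = ∫ x : EuclideanSpace ℝ (Fin d),
          (fun r : ℝ => (2 * π) ^ (-(d : ℝ) / 2) * (Real.exp (-r ^ 2 / 2) * r)) ‖x‖ :=
        integral_congr_ae (Filter.Eventually.of_forall hpt)
    _ = _ := hpolar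
    _ = _ := by rw [hinner]

theorem integral_rpow_mul_exp_half_sq (q : ℝ) (hq : -1 < q) :
    ∫ r in Set.Ioi (0 : ℝ), r ^ q * Real.exp (-(1 / 2 : ℝ) * r ^ (2 : ℝ))
      = (1 / 2 : ℝ) ^ (-(q + 1) / 2) * (1 / 2) * Real.Gamma ((q + 1) / 2) :=
  integral_rpow_mul_exp_neg_mul_rpow (p := 2) (q := q) (b := 1 / 2) (by norm_num) hq (by norm_num)

theorem volume_real_ball_three :
    (volume : Measure (EuclideanSpace ℝ (Fin 3))).real (Metric.ball 0 1) = π * 4 / 3 := by
  rw [Measure.real, EuclideanSpace.volume_ball_fin_three]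
  simp
  positivity

theorem volume_real_ball_four :
    (volume : Measure (EuclideanSpace ℝ (Fin 4))).real (Metric.ball 0 1) = π ^ 2 / 2 := by
  rw [Measure.real, InnerProductSpace.volume_ball_of_dim_even (k := 2) (by simp)]
  simp
  positivity

theorem alg_three (a b : ℝ) (ha0 : 0 < a) (hb0 : 0 < b) (ha : a ^ 2 = 2) :
    3 * (b ^ 2 * 4 / 3 * (((a * b) ^ 3)⁻¹ * (4 * (1 / 2) * 1))) = 2 * (a / b) := by
  field_simp
  have ha4 : a ^ 4 = 4 := by nlinarith
  nlinarith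

theorem alg_four (a b : ℝ) (ha0 : 0 < a) (hb0 : 0 < b) (ha : a ^ 2 = 2) :
    4 * ((b ^ 2) ^ 2 / 2 * (((2 * b ^ 2) ^ 2)⁻¹ * (a ^ 5 * (1 / 2) * (3 / 4 * b))))
      = 3 * (a * b) / 4 := by
  have ha5 : a ^ 5 = 4 * a := by
    have ha4 : a ^ 4 = 4 := by nlinarith
    calc a ^ 5 = a ^ 4 * a := by ring
      _ = 4 * a := by rw [ha4]
  rw [ha5]
  field_simp
  ring

/-- Pool job CHI3. -/
theorem integral_norm_stdGaussian_three :
    ∫ y, ‖y‖ ∂(stdGaussian (EuclideanSpace ℝ (Fin 3))) = 2 * Real.sqrt (2 / Real.pi) := by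
  rw [integral_norm_stdGaussian_eq 3 (by norm_num), volume_real_ball_three]
  simp only [Nat.cast_ofNat]
  rw [integral_rpow_mul_exp_half_sq 3 (by norm_num)]
  have hG : Real.Gamma (((3 : ℝ) + 1) / 2) = 1 := by
    rw [show ((3 : ℝ) + 1) / 2 = 2 by norm_num, Real.Gamma_two]
  have hpow : (1 / 2 : ℝ) ^ (-((3 : ℝ) + 1) / 2) = 4 := by
    rw [show -((3 : ℝ) + 1) / 2 = ((-2 : ℤ) : ℝ) by norm_num, Real.rpow_intCast]
    norm_num
  have h2pi : (2 * π) ^ (-(3 : ℝ) / 2) = ((√2 * √π) ^ 3)⁻¹ := by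
    rw [← Real.sqrt_mul (by norm_num : (0 : ℝ) ≤ 2), Real.sqrt_eq_rpow, ← Real.rpow_natCast,
      ← Real.rpow_mul (by positivity), ← Real.rpow_neg (by positivity)]
    norm_num
  have hsq : √(2 / π) = √2 / √π := Real.sqrt_div (by norm_num) π
  have hb : √π ^ 2 = π := Real.sq_sqrt pi_pos.le
  have ha : √2 ^ 2 = (2 : ℝ) := Real.sq_sqrt (by norm_num)
  rw [hG, hpow, h2pi, hsq]
  have key := alg_three (√2) (√π) (by positivity) (by positivity) ha
  rw [hb] at key
  exact key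

/-- Pool job CHI4. -/
theorem integral_norm_stdGaussian_four :
    ∫ q, ‖q‖ ∂(stdGaussian (EuclideanSpace ℝ (Fin 4))) = 3 * Real.sqrt (2 * Real.pi) / 4 := by
  rw [integral_norm_stdGaussian_eq 4 (by norm_num), volume_real_ball_four]
  simp only [Nat.cast_ofNat]
  rw [integral_rpow_mul_exp_half_sq 4 (by norm_num)]
  have hG : Real.Gamma (((4 : ℝ) + 1) / 2) = 3 / 4 * √π := by
    have h1 : Real.Gamma (1 / 2 + 1) = 1 / 2 * Real.Gamma (1 / 2) :=
      Real.Gamma_add_one (by norm_num)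
    have h2 : Real.Gamma (3 / 2 + 1) = 3 / 2 * Real.Gamma (3 / 2) :=
      Real.Gamma_add_one (by norm_num)
    rw [show ((4 : ℝ) + 1) / 2 = 3 / 2 + 1 by norm_num, h2,
      show (3 / 2 : ℝ) = 1 / 2 + 1 by norm_num, h1, Real.Gamma_one_half_eq]
    ring
  have hpow : (1 / 2 : ℝ) ^ (-((4 : ℝ) + 1) / 2) = √2 ^ 5 := by
    rw [Real.sqrt_eq_rpow, ← Real.rpow_natCast, ← Real.rpow_mul (by norm_num),
      show -((4 : ℝ) + 1) / 2 = -(1 / 2 * ((5 : ℕ) : ℝ)) by norm_num,
      Real.rpow_neg (by norm_num), one_div, Real.inv_rpow (by norm_num), inv_inv]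
  have h2pi : (2 * π) ^ (-(4 : ℝ) / 2) = ((2 * π) ^ 2)⁻¹ := by
    rw [show -(4 : ℝ) / 2 = -((2 : ℕ) : ℝ) by norm_num, Real.rpow_neg (by positivity),
      Real.rpow_natCast]
  have hsq : √(2 * π) = √2 * √π := Real.sqrt_mul (by norm_num) π
  have hb : √π ^ 2 = π := Real.sq_sqrt pi_pos.le
  have ha : √2 ^ 2 = (2 : ℝ) := Real.sq_sqrt (by norm_num)
  rw [hG, hpow, h2pi, hsq]
  have key := alg_four (√2) (√π) (by positivity) (by positivity) ha
  rw [hb] at key
  exact key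

end Vale.Agent.Lib.P226.H28
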